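import Vale.Agent.P354FS.Main
import Vale.Agent.P354YF.Fte4
import Vale.Agent.P354YK.Tm2
import Vale.Agent.P354FX.Ins
import Vale.Agent.P354PA.Low

/-!
The row FSE without hypotheses.
-/

namespace Vale.Agent.P354FS

theorem rawn : RAWN := fun _ h m n N ρ =>
  let ⟨c, c0, B, B0, a⟩ := P354YF.raw_near h m n N ρ
  ⟨c, c0, B, B0, fun x d y r d0 d1 q =>
    a x d y r d0 d1 fun i => (P354BO.q2_mono _ _ (n.le_add_right 4) _).trans (q i)⟩

theorem rawl : RAWL := fun _ h m _ N e =>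
  let ⟨c, c0, B, B0, a⟩ := P354YF.raw_lay h m N
  ⟨c, c0, B, B0, fun x d d0 d1 q => (a x d d0 d1 fun i =>
    (P354BO.q2_mono _ _ (N.le_add_right 2) _).trans (q i)).mono h.is e le_rfl le_rfl⟩

theorem tmi : TMI := fun _ h _ _ _ _ g => h.tm_is g

theorem fse : P354CO.FSE P354CO.TabE :=
  fse_of tmi P354FX.tubeb P354PA.low2 rawn rawl P354FX.reve

end Vale.Agent.P354FS
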