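import Vale.Agent.P354FS.Lay
import Vale.Agent.P354CO.Slab
import Vale.Agent.P354YF.Fte2
import Vale.Agent.P354FX.Defs2
import Vale.Agent.P354XR.Es3
import Vale.Agent.P354YL.Fa

/-!
The integral of the density of the layer.
-/

open Set

noncomputable section

namespace Vale.Agent.P354FS

open Vale.Agent.P354XG Vale.Agent.P354XD Vale.Agent.P354XI Vale.Agent.P354Z Vale.Agent.P354CV
open Vale.Agent.P354CO (Sl Gi Bo)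
open Vale.Agent.P354YK (Fm)
open Vale.Agent.P354XZ (Cut Lt)
open Vale.Agent.P354YL (Ql)
open Vale.Agent.P354FA (Vw)
open Vale.Agent.P354FX (dv Pe TUBEB LOW2)
open Vale.Agent.P354YF (Raw raw_ql cnt)

/-- The tables on bounded radii. -/
def RAWN : Prop := ∀ (Φ : Fm) (h : Φ.Ok), (∀ j, 4 * Φ.M0 ≤ Φ.R0 j) → ∀ (n N : ℕ) (ρ : ℝ),
  ∃ δ > 0, ∃ C ≥ 0, ∀ (x : h.ch.Pt) (d y : ℝ), h.ch.rr x ≤ ρ → 0 ≤ d → d ≤ δ →
    (∀ i, q2 (lt (hp _) ((Φ.E x.1).p2 (Φ.c x.1))) (h.pt x) (n + 4) ((Φ.E x.1).d2 (Φ.c x.1) i) ≤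
      d ^ 2) →
    (∀ w k, List.length w ≤ N → k ≤ 4 → dv (Φ.c x.1) (Φ.E x.1) (h.pt x) w k ≤ y) →
    Raw h.ch Φ.nf Φ.nf0 (Vw Φ.nf Φ.nf0 h.ch) n N (C * (y + d)) x

/-- The tables near the initial slice. -/
def RAWL : Prop := ∀ (Φ : Fm) (h : Φ.Ok), (∀ j, 4 * Φ.M0 ≤ Φ.R0 j) → ∀ n N : ℕ, n ≤ N →
  ∃ δ > 0, ∃ C ≥ 0, ∀ (x : h.ch.Pt) (e : ℝ), 0 ≤ e → e ≤ δ →
    (∀ i, q2 (ll (hp _) ((Φ.E x.1).p2 (Φ.c x.1))) (h.pt x) (N + 2) ((Φ.E x.1).d2 (Φ.c x.1) i) ≤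
      (e / (h.pt x).2.1 ^ dm i) ^ 2) →
    Raw h.ch Φ.nf Φ.nf0 (Vw Φ.nf Φ.nf0 h.ch) n N (C * e) x

variable {c : Cs} {E : Est} {Q R T D ε : ℝ} {L : ℕ}

theorem gi_par (o : c.Ok) (i : E.Is c) (g : Gi c E Q R T D) : 0 ≤ D ∧ E.e0 ≤ √D ∧
    |E.M - c.M| ≤ √D ∧ c.B * (E.e0 + |E.M - c.M| + |E.a - c.a|) ≤ √D := by
  have e := i.near.e0
  have a := Real.le_sqrt_of_sq_le g.1
  have b := le_mul_of_one_le_left (show 0 ≤ E.e0 + |E.M - c.M| + |E.a - c.a| by positivity) o.B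
  exact ⟨(sq_nonneg _).trans g.1, by linarith [abs_nonneg (E.M - c.M), abs_nonneg (E.a - c.a)],
    by linarith [abs_nonneg (E.a - c.a)], a⟩

theorem bo_an (b : Bo c E L ε) {n : ℕ} (hn : n ≤ L) {x : E6} (hx : x ∈ E.O1) (a : An x) :
    E.eta n x ≤ (Real.exp (4 + 2 * n) * ε) ^ 2 := by
  have h : P354XR.Nr c E :=
    ⟨b.is.shape.co1, b.is.eqs, ((abs_nonneg _).trans_lt b.is.eqs.par.1).ne'⟩
  obtain ⟨y, m, n1, -, -, e⟩ := h.eta_An hx a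
  rw [mul_pow]
  exact (e n).1.trans (mul_le_mul_of_nonneg_left ((P354CO.eta_mono hn y).trans
    (dec_ini (by norm_num) b.dec (abs_of_pos b.pos).le y.2.1 y.1 y m n1 le_rfl le_rfl))
    (sq_nonneg _))

theorem ut_le {A : Type} [CommRing A] [Algebra ℂ A] {C : P354XZ.Ch A} (h : C.Is) (j : C.J) (u : ℝ) :
    C.ut j u ≤ |u| + C.U0 j := by
  have U := zero_le_one.trans ((h.one_le j).1.trans (h.one_le j).2)
  exact Real.sqrt_le_iff.2 ⟨by positivity, by nlinarith [sq_abs u, mul_nonneg (abs_nonneg u) U]⟩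

theorem cnt_nn (s : ℕ) : 0 ≤ cnt s := by unfold cnt; positivity

theorem ar1 {p v W X Y Λ c1 c2 b : ℝ} (p0 : 0 ≤ p) (e : v ≤ c1 * (W * X)) (q : p * W ≤ Λ * Y)
    (X0 : 0 ≤ X) (Λ0 : 0 ≤ Λ) (h1 : 0 ≤ c1) (h2 : 0 ≤ c2) (b1 : 0 ≤ Y * X) (b2 : 0 ≤ b) :
    p * v ≤ Λ * (c1 + c2) * (Y * X + b) := by
  linarith [mul_le_mul_of_nonneg_left e p0, mul_le_mul_of_nonneg_left
    (mul_le_mul_of_nonneg_right q X0) h1, mul_nonneg (mul_nonneg Λ0 h2) b1,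
    mul_nonneg (mul_nonneg Λ0 (add_nonneg h1 h2)) b2]

theorem ar2 {Λ c1 c2 a b : ℝ} (Λ0 : 0 ≤ Λ) (h1 : 0 ≤ c1) (h2 : 0 ≤ c2) (b1 : 0 ≤ a) (b2 : 0 ≤ b) :
    Λ * (c2 * b) ≤ Λ * (c1 + c2) * (a + b) := by
  linarith [mul_nonneg (mul_nonneg Λ0 h1) b2, mul_nonneg (mul_nonneg Λ0 (add_nonneg h1 h2)) b1]

theorem ar3 {d r : ℝ} (h : d ≤ 1 / 10) (e : 1 ≤ r) : d * r ≤ r / 2 := by nlinarith

variable {Φ : Fm} (h : Φ.Ok) {K : Cut h.ch} (k : K.Is) (m4 : ∀ j, 4 * Φ.M0 ≤ Φ.R0 j)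
include k m4

/-- The density in the tube. -/
theorem ql_tube (H1 : TUBEB) (H2 : LOW2) (H3 : RAWN) (n s : ℕ) (ρ U P : ℝ) :
    ∃ δ > 0, ∃ C ≥ 0, ∀ (x : h.ch.Pt) L ε l β, (Φ.c x.1).Ok → Bo (Φ.c x.1) (Φ.E x.1) L ε → ε ≤ δ →
      (n + s) / 2 ≤ L → n + 4 ≤ (Φ.c x.1).N0 → Φ.U0 x.1 ≤ U → h.ch.at' K.p x ≤ P → 0 ≤ l →
      h.pt x ∈ (Φ.E x.1).O1 → Est.Fa (Φ.c x.1) (h.pt x) → (h.pt x).2.1 ≤ ρ →
      |(Φ.E x.1).M - (Φ.c x.1).M| ≤ δ → 0 ≤ β → √β ≤ δ →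
      (∀ i, q2 (lt (hp _) ((Φ.E x.1).p1 (Φ.c x.1))) (h.pt x) (Φ.c x.1).N0
          ((Φ.E x.1).d1 (Φ.c x.1) i) ≤ β ∧
        q2 (lt (hp _) ((Φ.E x.1).p2 (Φ.c x.1))) (h.pt x) (Φ.c x.1).N0
          ((Φ.E x.1).d2 (Φ.c x.1) i) ≤ β) →
      h.ch.val x (Ql h.ch Φ.nf Φ.nf0 K (Vw Φ.nf Φ.nf0 h.ch) l n s) ≤
        C * ((1 + |(h.pt x).1|) ^ (14 / 5 : ℝ) * ((Φ.E x.1).eta (n + s) (h.pt x) + β)) := by
  obtain ⟨δ1, p1, C1, c1, a1⟩ := H1 Φ.M0 ρ (n + s)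
  obtain ⟨δ2, p2, C2, c2, a2⟩ := H2 Φ.M0 ρ
  obtain ⟨δ3, p3, C3, c3, a3⟩ := H3 Φ h m4 n (n + s) ρ
  have x0 := Real.exp_pos (4 + 2 * ((n + s) / 2 : ℕ))
  set X := Real.exp (4 + 2 * ((n + s) / 2 : ℕ))
  set κ := 1 + 4 * Φ.M0 ^ 2 + |U|
  have κ1 : 1 ≤ κ := by have := sq_nonneg Φ.M0; have := abs_nonneg U; linarith
  refine ⟨min (δ1 / (1 + X + C2)) (min δ2 δ3), by positivity,
    cnt s * (|P| * (3 * κ) ^ (14 / 5 : ℝ) * (2 * (C3 * (C1 * (1 + C2) + 1)) ^ 2)),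
    mul_nonneg (cnt_nn s) (by positivity),
    fun x L ε l β o b e1 hL hN hU hP l0 m1 fa r hM β0 e2 g => ?_⟩
  obtain ⟨m2, an, -⟩ := h.pt_mem x
  have f : ∀ {z}, 0 ≤ z → z ≤ min (δ1 / (1 + X + C2)) (min δ2 δ3) →
      z ≤ δ1 ∧ X * z ≤ δ1 ∧ C2 * z ≤ δ1 ∧ z ≤ δ2 ∧ z ≤ δ3 := fun z0 e => by
    have := (le_div_iff₀ (by positivity)).1 (e.trans (min_le_left ..))
    have := mul_nonneg z0 x0.le
    have := mul_nonneg z0 c2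
    exact ⟨by linarith, by linarith, by linarith, e.trans ((min_le_right ..).trans (min_le_left ..)),
      e.trans ((min_le_right ..).trans (min_le_right ..))⟩
  have d0 := Real.sqrt_nonneg β
  have dq := Real.sq_sqrt β0
  obtain ⟨f1, -, f3, f4, f5⟩ := f d0 e2
  have η0 := eta_nn (Φ.E x.1) (n + s) (h.pt x)
  have y0 := Real.sqrt_nonneg ((Φ.E x.1).eta (n + s) (h.pt x))
  have yq := Real.sq_sqrt η0
  have pe : Pe (Φ.c x.1) (Φ.E x.1) (h.pt x) ρ δ1 := ⟨o, b.is.shape, b.is.eqs,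
    (f (abs_nonneg _) hM).1, m1, an, fa, r,
    fun i => (Real.le_sqrt_of_sq_le ((P354BO.q2_val _ _ _ _).trans (g _).1)).trans f1,
    fun i => (Real.le_sqrt_of_sq_le ((P354BO.q2_val _ _ _ _).trans (g _).2)).trans f1⟩
  have q : ∀ m ≤ n + 4, ∀ i, q2 (lt (hp _) ((Φ.E x.1).p2 (Φ.c x.1))) (h.pt x) m
      ((Φ.E x.1).d2 (Φ.c x.1) i) ≤ √β ^ 2 := fun m hm i =>
    ((P354BO.q2_mono _ _ (hm.trans hN) _).trans (g i).2).trans_eq dq.symm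
  have v := a1 _ _ _ (h.M _) pe ((bo_an b hL m1 an).trans (pow_le_pow_left₀
    (mul_nonneg x0.le b.pos.le) (f b.pos.le e1).2.1 2)) _ f3
    (a2 _ _ _ (h.M _) o b.is.shape b.is.eqs m2 an fa r _ d0 f4 (q 2 (by omega))) _ y0 yq.ge
  have w := a3 x _ _ ((h.rr_eq x).trans_le r) d0 f5 (q _ le_rfl) v
  have r1 := P354YF.one_le_rr h.is x
  have t0 := abs_nonneg (h.pt x).1
  have μ1 : 1 ≤ κ * (1 + |(h.pt x).1|) := by nlinarith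
  have hμ : h.ch.ut x.1 (h.ch.uu x) ≤ κ * (1 + |(h.pt x).1|) * h.ch.rr x := by
    refine (ut_le h.is _ _).trans (le_trans ?_ (le_mul_of_one_le_right (by linarith) r1))
    have a : |h.ch.uu x| ≤ |(h.pt x).1| + 4 * Φ.M0 ^ 2 := by
      rw [h.uu_eq, uu, ← h.rr_eq]
      refine (abs_add_le _ _).trans (add_le_add le_rfl ?_)
      rw [abs_of_nonneg (by positivity)]
      exact div_le_self (by positivity) r1
    have b : h.ch.U0 x.1 ≤ |U| := hU.trans (le_abs_self U)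
    nlinarith
  refine (raw_ql h.is μ1 hμ k l0 (hP.trans (le_abs_self P)) w).trans ?_
  rw [mul_assoc (cnt s)]
  refine mul_le_mul_of_nonneg_left ?_ (cnt_nn s)
  have z1 : h.ch.rr x ^ (-41 / 20 : ℝ) ≤ 1 := Real.rpow_le_one_of_one_le_of_nonpos r1 (by norm_num)
  have z2 : (C3 * (C1 * (√((Φ.E x.1).eta (n + s) (h.pt x)) + C2 * √β) + √β)) ^ 2 ≤
      2 * (C3 * (C1 * (1 + C2) + 1)) ^ 2 * ((Φ.E x.1).eta (n + s) (h.pt x) + β) := by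
    generalize √((Φ.E x.1).eta (n + s) (h.pt x)) = y at *
    generalize √β = d at *
    refine (pow_le_pow_left₀ (by positivity) (show _ ≤ C3 * (C1 * (1 + C2) + 1) * (y + d) by
      rw [mul_assoc]
      refine mul_le_mul_of_nonneg_left ?_ c3
      nlinarith [mul_nonneg c1 d0, mul_nonneg (mul_nonneg c1 c2) y0]) 2).trans ?_
    rw [mul_pow, ← yq, ← dq]
    nlinarith [mul_nonneg (sq_nonneg (C3 * (C1 * (1 + C2) + 1))) (sq_nonneg (y - d))]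
  rw [← mul_assoc 3, Real.mul_rpow (by positivity) (by positivity)]
  refine (mul_le_of_le_one_right (by positivity) z1).trans
    ((mul_le_mul_of_nonneg_left z2 (by positivity)).trans_eq (by ring))

/-- The density near the initial slice. -/
theorem ql_far (H4 : RAWL) (n s : ℕ) (U P : ℝ) :
    ∃ δ > 0, ∃ C ≥ 0, ∀ (x : h.ch.Pt) l e, (Φ.c x.1).Ok → (Φ.E x.1).Near (Φ.c x.1) →
      n + s ≤ (Φ.c x.1).K → Φ.U0 x.1 ≤ U → h.ch.at' K.p x ≤ P → 0 ≤ l →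
      4 * (Φ.c x.1).R1 ≤ h.ch.rr x → h.ch.uu x + h.ch.rr x ≤ (Φ.c x.1).del * h.ch.rr x → e ≤ δ →
      (Φ.c x.1).B * ((Φ.E x.1).e0 + |(Φ.E x.1).M - (Φ.c x.1).M| + |(Φ.E x.1).a - (Φ.c x.1).a|) ≤ e →
      h.ch.val x (Ql h.ch Φ.nf Φ.nf0 K (Vw Φ.nf Φ.nf0 h.ch) l n s) ≤
        C * (e ^ 2 * h.ch.rr x ^ (-41 / 20 : ℝ)) := by
  obtain ⟨δ, p, C, c0, a⟩ := H4 Φ h m4 n (n + s) (n.le_add_right s)
  refine ⟨δ, p, cnt s * (|P| * (3 * (1 + |U|)) ^ (14 / 5 : ℝ) * C ^ 2),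
    mul_nonneg (cnt_nn s) (by positivity), fun x l e o ne hK hU hP l0 r4 u1 e1 e2 => ?_⟩
  obtain ⟨m2, an, -, u0⟩ := h.pt_mem x
  have r1 := P354YF.one_le_rr h.is x
  have z : 0 ≤ (Φ.c x.1).B * ((Φ.E x.1).e0 + |(Φ.E x.1).M - (Φ.c x.1).M| +
      |(Φ.E x.1).a - (Φ.c x.1).a|) := by
    have := ne.e0
    have := o.B
    positivity
  have hμ : h.ch.ut x.1 (h.ch.uu x) ≤ (1 + |U|) * h.ch.rr x := by
    have b : h.ch.U0 x.1 ≤ |U| := hU.trans (le_abs_self U)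
    have a : |h.ch.uu x| ≤ h.ch.rr x := by
      rw [← h.uu_eq, ← h.rr_eq] at u0
      exact abs_le.2 ⟨by linarith, by nlinarith [o.del.2]⟩
    nlinarith [ut_le h.is x.1 (h.ch.uu x), abs_nonneg U]
  rw [h.uu_eq, h.rr_eq, ← h.M x.1] at u1
  rw [← h.M x.1] at u0
  rw [h.rr_eq] at r4
  have w := a x e (z.trans e2) e1 fun i => ((P354BO.q2_mono _ _ (by omega) _).trans
    (ne.lay _ m2 an r4 u0 u1 i)).trans (pow_le_pow_left₀ (div_nonneg z (pow_nonneg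
      (zero_le_one.trans (r1.trans_eq (h.rr_eq x))) _)) (div_le_div_of_nonneg_right e2 (pow_nonneg
      (zero_le_one.trans (r1.trans_eq (h.rr_eq x))) _)) 2)
  exact (raw_ql h.is (le_add_of_nonneg_right (abs_nonneg U)) hμ k l0 (hP.trans (le_abs_self P))
    w).trans_eq (by ring)

/-- The integral over the layer. -/
theorem layb (H1 : TUBEB) (H2 : LOW2) (H3 : RAWN) (H4 : RAWL) (n s : ℕ) (t1 R0 U P R : ℝ) :
    ∃ δ > 0, ∃ C ≥ 0, ∀ j : Φ.J, (Φ.c j).Ok → (Φ.c j).t1 = t1 → Φ.R0 j = R0 → Φ.U0 j ≤ U →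
      K.pm j ≤ P → n + 4 ≤ (Φ.c j).N0 → n + s ≤ (Φ.c j).K → 4 * (Φ.c j).R1 ≤ R0 → 4 * R0 ≤ R →
      R + 1 ≤ (Φ.c j).Rs → (∀ x : h.ch.Pt, x.1 = j → h.ch.at' K.lay x ≠ 0 → h.ch.rr x ≤ 4 * R0 ∨
        h.ch.uu x + h.ch.rr x ≤ (Φ.c j).del * h.ch.rr x) →
      ∀ L ε Q Λ D s' T l ps, (n + s) / 2 ≤ L → Bo (Φ.c j) (Φ.E j) L ε → ε ≤ δ → D ≤ δ → 0 ≤ Q →
        Q ≤ 3 → 0 ≤ Λ → 0 ≤ l → Gi (Φ.c j) (Φ.E j) Q R T D →
        Sl (Φ.c j) Q (Ys (Φ.c j) (Φ.E j) (n + s) s' R) T D → h.ch.c ps = ps →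
        ps * h.ch.fn K.lay ∈ (h.ch.B j).K → (∀ x : h.ch.Pt, x.1 = j → 0 ≤ h.ch.val x ps ∧
          h.ch.val x ps ≤ Λ ∧ (h.ch.rr x ≤ 4 * R0 →
            h.ch.val x ps * (1 + |(h.pt x).1|) ^ (14 / 5 : ℝ) ≤ Λ * (1 + |(h.pt x).1|) ^ Q ∧
            (h.ch.val x ps ≠ 0 → rv (Φ.E j).tau (h.pt x) ≤ s' ∧ (h.pt x).1 ≤ T))) →
        K.L j ps (Ql h.ch Φ.nf Φ.nf0 K (Vw Φ.nf Φ.nf0 h.ch) l n s) ≤ C * Λ * D := by
  obtain ⟨δ1, p1, C1, c1, a1⟩ := ql_tube h k m4 H1 H2 H3 n s R U P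
  obtain ⟨δ2, p2, C2, c2, a2⟩ := ql_far h k m4 H4 n s U P
  obtain ⟨C3, c3, a3⟩ := lay_int Φ.M0 t1 R
  refine ⟨min δ1 (min δ1 δ2 ^ 2), by positivity, C3 * (C1 + C2), by positivity,
    fun j o ht h0 hU hP hN hK r4 hR hs ly L ε Q Λ D s' T l ps hL b e1 e2 Q0 Q3 Λ0 l0 g sl re m
      hp => ?_⟩
  obtain ⟨D0, -, g2, g3⟩ := gi_par o b.is g
  obtain ⟨-, β, β0, sβ, g⟩ := g
  have sD : √D ≤ min δ1 δ2 := Real.sqrt_le_iff.2 ⟨by positivity, e2.trans (min_le_right ..)⟩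
  have R1 := o.R1
  have M0 := M_pos o
  refine (a3 Φ h j o rfl ht b.is.shape (by linarith) (by linarith) hs Q (Λ * (C1 + C2)) D s' T
    (n + s) β _ Q0 Q3 (by positivity) D0 β0 sβ sl (Ideal.mul_mem_right _ _ m) ?_).trans_eq (by ring)
  rintro x rfl
  obtain ⟨q0, q1, q2⟩ := hp x rfl
  obtain ⟨m2, an, w1, w2⟩ := h.pt_mem x
  have r1 := P354YF.one_le_rr h.is x
  have b1 := bd1_nn (c := Φ.c x.1) (E := Φ.E x.1) (Q := Q) (n := n + s) (s := s') (R := R) (T := T)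
    β0 (h.pt x)
  have b2 := bd2_nn (M := Φ.M0) D0 (zero_le_one.trans (r1.trans_eq (h.rr_eq x)))
  have pp := (k.ple _ _ (h.is.dom x)).2.1.trans hP
  have l1 := (k.rng _ _ (h.is.dom x)).2
  have v0 := P354YL.Ql_pos h.is (F := Φ.nf) (F0 := Φ.nf0) (Vw := Vw Φ.nf Φ.nf0 h.ch) (l := l)
    (x := x) k n s
  rw [mul_assoc, P354YF.vl_mul h.is re, P354YF.vl_fn_mul h.is k.sm.2.1]
  by_cases z : h.ch.val x ps = 0
  · rw [z, zero_mul]; positivity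
  by_cases z' : h.ch.at' K.lay x = 0
  · rw [z', zero_mul, mul_zero]; positivity
  refine (mul_le_mul_of_nonneg_left (mul_le_of_le_one_left v0 l1.2) q0).trans ?_
  rcases ly x rfl z' with y | y
  · obtain ⟨q3, q4⟩ := q2 y
    obtain ⟨q4, q5⟩ := q4 z
    rw [h.rr_eq] at y
    have fa : Est.Fa (Φ.c x.1) (h.pt x) := ⟨by linarith, (h.M x.1).symm ▸ w2⟩
    have m1 := b.is.shape.low _ m2 fa (by linarith)
    have e := a1 x L ε l _ o b (e1.trans (min_le_left ..)) hL hN hU pp l0 m1 fa (by linarith)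
      (g2.trans (sD.trans (min_le_left ..))) (β0 _) ((Real.sqrt_le_sqrt (P354CO.le_D Q0 β0 sβ
        _)).trans (sD.trans (min_le_left ..))) fun i =>
        (g _ m1 an (by linarith) q5 i).imp_right fun e => e fa
    rw [bd1, if_pos ⟨y.trans hR, q4, q5⟩] at b1 ⊢
    exact ar1 q0 e q3 (add_nonneg (eta_nn ..) (β0 _)) Λ0 c1 c2 b1 b2
  · have e := a2 x l _ o b.is.near hK hU pp l0 (by rw [h.rr_eq]; linarith) y
      (sD.trans (min_le_right ..)) g3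
    rw [Real.sq_sqrt D0, h.rr_eq] at e
    rw [h.uu_eq, h.rr_eq] at y
    rw [h.rr_eq] at r1
    rw [bd2, if_pos (y.trans (ar3 o.del.2 r1))] at b2 ⊢
    exact (mul_le_mul q1 e v0 Λ0).trans (ar2 Λ0 c1 c2 b1 b2)

end Vale.Agent.P354FS
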