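import Vale.Agent.P354CO.Defs

/-!
The integral over the two layers of the far region.
-/

open scoped ENNReal
open MeasureTheory Set Finset

noncomputable section

namespace Vale.Agent.P354FS

open Vale.Agent.P354XG Vale.Agent.P354XD Vale.Agent.P354XI Vale.Agent.P354Z Vale.Agent.P354CV
open Vale.Agent.P354YH (wt sm)
open Vale.Agent.P354CO (Sl lo)
open Vale.Agent.P354YK (Fm)
open ENNReal (ofReal)

/-- Boxes. -/
def bx (a l r m : ℝ) : Set E6 := Icc a (a + l) ×ˢ Icc r (r + m) ×ˢ Metric.closedBall 0 2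
def V0 : ℝ≥0∞ := volume (Metric.closedBall (0 : ℂ × ℂ) 2)

theorem V0_ne : V0 ≠ ∞ := (isCompact_closedBall _ _).measure_lt_top.ne

theorem bx_ms (a l r m : ℝ) : MeasurableSet (bx a l r m) :=
  measurableSet_Icc.prod (measurableSet_Icc.prod measurableSet_closedBall)

theorem bx_vol (a l r m : ℝ) : volume (bx a l r m) = ofReal l * (ofReal m * V0) := by
  rw [bx, Measure.volume_eq_prod, Measure.prod_prod, Measure.volume_eq_prod, Measure.prod_prod,
    Real.volume_Icc, Real.volume_Icc, add_sub_cancel_left, add_sub_cancel_left, V0]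

theorem an_ball {x : E6} (h : An x) : x.2.2 ∈ Metric.closedBall (0 : ℂ × ℂ) 2 := by
  have := h.2
  rw [nq, Complex.normSq_eq_norm_sq, Complex.normSq_eq_norm_sq] at this
  rw [mem_closedBall_zero_iff, Prod.norm_def, max_le_iff]
  constructor <;> nlinarith [norm_nonneg x.2.2.1, norm_nonneg x.2.2.2]

theorem int_le {F : E6 → ℝ} {a : ℝ} (ha : 0 ≤ a) (h : ∫⁻ x, ofReal (F x) ≤ ofReal a) :
    ∫ x, F x ≤ a := by
  by_cases i : Integrable F
  · rw [integral_eq_lintegral_pos_part_sub_lintegral_neg_part i]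
    exact (sub_le_self _ ENNReal.toReal_nonneg).trans (ENNReal.toReal_le_of_le_ofReal ha h)
  · rwa [integral_undef i]

/-- The layer along the initial slice. -/
def U2 (M : ℝ) : Set E6 := ⋃ k : ℕ, bx (-(k + 2 + 4 * M ^ 2)) (k + 2 + 4 * M ^ 2) (k + 1) 1

theorem far_fin (M : ℝ) : ∫⁻ x in U2 M, ofReal (x.2.1 ^ (-41 / 20 : ℝ)) ≠ ∞ := by
  have s : Summable fun k : ℕ => (2 + 4 * M ^ 2) * ((k + 1 : ℕ) : ℝ) ^ (-21 / 20 : ℝ) :=
    ((summable_nat_add_iff 1).2 (Real.summable_nat_rpow.2 (by norm_num))).mul_left _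
  refine ne_top_of_le_ne_top (ENNReal.mul_ne_top (s.tsum_ofReal_ne_top) V0_ne)
    ((lintegral_iUnion_le _ _).trans ?_)
  rw [← ENNReal.tsum_mul_right]
  refine ENNReal.tsum_le_tsum fun k => (setLIntegral_mono' (bx_ms ..) (g := fun _ =>
    ofReal ((k + 1 : ℝ) ^ (-41 / 20 : ℝ))) fun x hx => ENNReal.ofReal_le_ofReal
      (Real.rpow_le_rpow_of_nonpos (by positivity) hx.2.1.1 (by norm_num))).trans ?_
  rw [setLIntegral_const, bx_vol, ENNReal.ofReal_one, one_mul, ← mul_assoc,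
    ← ENNReal.ofReal_mul (by positivity)]
  refine mul_le_mul_left (ENNReal.ofReal_le_ofReal ?_) _
  have p : (0 : ℝ) < k + 1 := by positivity
  rw [show (-21 / 20 : ℝ) = -41 / 20 + 1 by norm_num, Nat.cast_add_one, Real.rpow_add_one p.ne']
  have := Real.rpow_pos_of_pos p (-41 / 20)
  nlinarith [mul_nonneg this.le (mul_nonneg (sq_nonneg M) k.cast_nonneg),
    mul_nonneg this.le k.cast_nonneg]

theorem mem_U2 {M : ℝ} {x : E6} (a : An x) (r : 1 ≤ x.2.1) (u0 : 0 ≤ uu M x + x.2.1)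
    (u1 : uu M x + x.2.1 ≤ x.2.1 / 2) : x ∈ U2 M := by
  have f1 := Nat.floor_le (sub_nonneg.2 r)
  have f2 := Nat.lt_floor_add_one (x.2.1 - 1)
  have e0 : 0 ≤ 4 * M ^ 2 / x.2.1 := by positivity
  have e1 : 4 * M ^ 2 / x.2.1 ≤ 4 * M ^ 2 := div_le_self (by positivity) r
  rw [uu] at u0 u1
  exact mem_iUnion.2 ⟨⌊x.2.1 - 1⌋₊, ⟨by linarith, by linarith⟩, ⟨by linarith, by linarith⟩,
    an_ball a⟩

open Classical in
/-- The bounds in the layer at the inner radius, and in the layer along the initial slice. -/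
def bd1 (c : Cs) (E : Est) (Q : ℝ) (n : ℕ) (s R T : ℝ) (b : ℕ → ℝ) (y : E6) : ℝ :=
  if y.2.1 ≤ R ∧ rv E.tau y ≤ s ∧ y.1 ≤ T then (1 + |y.1|) ^ Q * (E.eta n y + b ⌊y.1 - c.t1⌋₊)
  else 0
def bd2 (M D : ℝ) (y : E6) : ℝ :=
  if uu M y + y.2.1 ≤ y.2.1 / 2 then D * y.2.1 ^ (-41 / 20 : ℝ) else 0

theorem q2_nn {O : Set E6} {ι : Type} [Fintype ι] (X : ι → Der (Sm (on O))) (x : E6) :
    ∀ n f, 0 ≤ q2 X x n f
  | 0, _ => sq_nonneg _
  | n + 1, f => add_nonneg (q2_nn X x n f) (sum_nonneg fun _ _ => q2_nn X x n _)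

theorem eta_nn (E : Est) (n : ℕ) (x : E6) : 0 ≤ E.eta n x := add_nonneg (q2_nn ..) (q2_nn ..)

variable {c : Cs} {E : Est} {Q s R T D : ℝ} {n : ℕ} {b : ℕ → ℝ}

theorem bd1_nn (hb : ∀ j, 0 ≤ b j) (y : E6) : 0 ≤ bd1 c E Q n s R T b y := by
  unfold bd1
  split_ifs
  exacts [mul_nonneg (by positivity) (add_nonneg (eta_nn ..) (hb _)), le_rfl]

theorem bd2_nn {M : ℝ} (hD : 0 ≤ D) {y : E6} (h : 0 ≤ y.2.1) : 0 ≤ bd2 M D y := by
  unfold bd2
  split_ifs
  exacts [by positivity, le_rfl]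

theorem fa_ab (o : c.Ok) {x : E6} (h : Est.Fa c x) : Est.Ab c x := by
  have := h.2
  rw [Est.Ab, o.btf _ h.1]
  rw [uu] at this
  linarith

theorem ab_fa (o : c.Ok) {x : E6} (h : Est.Ab c x) (r : c.R1 + 3 ≤ x.2.1) : Est.Fa c x := by
  rw [Est.Ab, o.btf _ r] at h
  exact ⟨r, by rw [uu]; linarith⟩

theorem M_pos (o : c.Ok) : 0 < c.M := (abs_nonneg _).trans_lt o.aM

/-- The layer at the inner radius. -/
theorem near_le (o : c.Ok) (sh : E.Shape c) (hR : R + 1 ≤ c.Rs) (R0 : 0 ≤ R) (Q0 : 0 ≤ Q)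
    (Q3 : Q ≤ 3) (hb : ∀ j, 0 ≤ b j) (sb : ∀ k, sm Q k b ≤ D) (sl : Sl c Q (Ys c E n s R) T D) :
    ∫⁻ x, {x | x ∈ E.O2 ∧ An x ∧ Est.Fa c x}.indicator (fun x => ofReal (bd1 c E Q n s R T b x)) x ≤
      ofReal ((2 + c.t1 + R + 4 * c.M ^ 2) ^ 3) * (1 + ofReal (1 + c.t1 + R + 4 * c.M ^ 2) *
        (ofReal R * V0)) * ofReal D := by
  have t1 := o.t1
  have m2 := sq_nonneg c.M
  set l := 1 + c.t1 + R + 4 * c.M ^ 2 with hl
  set κ := 2 + c.t1 + R + 4 * c.M ^ 2 with hκ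
  have κ1 : 1 ≤ κ := by linarith
  set V := ofReal l * (ofReal R * V0)
  let I : ℕ → Set E6 := fun j => (fun x : E6 => ⌊x.1 - c.t1⌋₊) ⁻¹' {j}
  have hI : ∀ j, MeasurableSet (I j) := fun j =>
    (measurable_fst.sub_const _).nat_floor (measurableSet_singleton j)
  have cov : ⋃ j, I j = univ := eq_univ_of_forall fun x => mem_iUnion.2 ⟨_, rfl⟩
  rw [← setLIntegral_univ, ← cov]
  refine (lintegral_iUnion_le _ _).trans ((ENNReal.tsum_le_tsum (g := fun j => ofReal (κ ^ 3) *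
    (ofReal (wt Q j) * Ys c E n s R (lo c j) (min (c.t1 + j + 1) T) +
      V * ofReal (wt Q j * b j))) fun j => ?_).trans ?_)
  · have w0 := (P354YH.wt_pos Q j).le
    refine ((setLIntegral_mono' (hI j) (g := fun x => {x | x ∈ E.O1 ∧ An x ∧
      x ∈ Zs c E s R (lo c j) (min (c.t1 + j + 1) T)}.indicator
        (fun x => ofReal (κ ^ 3) * ofReal (wt Q j) * ofReal (E.eta n x)) x +
      (bx (c.t1 + j + 1 - l) l 0 R).indicator (fun _ => ofReal (κ ^ 3) * ofReal (wt Q j * b j)) x)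
      fun x hx => ?_).trans (setLIntegral_le_lintegral _ _)).trans ?_
    · by_cases m : x ∈ {x | x ∈ E.O2 ∧ An x ∧ Est.Fa c x}
      swap
      · rw [indicator_of_notMem m]; exact zero_le
      rw [indicator_of_mem m, bd1]
      split_ifs with k
      swap
      · rw [ENNReal.ofReal_zero]; exact zero_le
      obtain ⟨m2, an, fa⟩ := m
      obtain ⟨k1, k2, k3⟩ := k
      have e : ⌊x.1 - c.t1⌋₊ = j := hx
      have m1 := sh.low x m2 fa (by linarith)
      have r1 : 1 ≤ x.2.1 := by linarith [fa.1, o.R1, M_pos o]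
      have f2 := Nat.lt_floor_add_one (x.1 - c.t1)
      have e1 : 4 * c.M ^ 2 / x.2.1 ≤ 4 * c.M ^ 2 := div_le_self (by positivity) r1
      have u0 := fa.2
      have j0 : (0 : ℝ) ≤ j := j.cast_nonneg
      have lj : lo c j ≤ x.1 ∧ c.t1 + j + 1 - l ≤ x.1 := by
        rw [uu] at u0
        rw [lo]
        split_ifs with z
        · exact ⟨(sh.rad1 x m1).2.2, by rw [z, Nat.cast_zero]; linarith⟩
        · have := Nat.floor_le (Nat.pos_of_floor_pos (e ▸ Nat.pos_of_ne_zero z)).le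
          rw [e] at this
          exact ⟨by linarith, by linarith⟩
      rw [e] at f2 ⊢
      rw [indicator_of_mem (show x ∈ {x | x ∈ E.O1 ∧ An x ∧ x ∈ Zs c E s R (lo c j)
          (min (c.t1 + j + 1) T)} from ⟨m1, an, fa_ab o fa, (sh.up x m1 fa).2.trans_le k2, k1, lj.1,
          le_min (by linarith) k3⟩),
        indicator_of_mem (show x ∈ bx (c.t1 + j + 1 - l) l 0 R from
          ⟨⟨lj.2, by linarith⟩, ⟨by linarith, by linarith⟩, an_ball an⟩),
        ← ENNReal.ofReal_mul (by positivity), ← ENNReal.ofReal_mul (by positivity),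
        ← ENNReal.ofReal_mul (by positivity), ← ENNReal.ofReal_add
          (mul_nonneg (by positivity) (eta_nn ..)) (mul_nonneg (by positivity) (mul_nonneg w0 (hb j)))]
      refine ENNReal.ofReal_le_ofReal ?_
      have a1 : 1 + |x.1| ≤ κ * (1 + j) := by
        rw [uu] at u0
        have : |x.1| ≤ l + j := abs_le.2 ⟨by linarith, by linarith⟩
        nlinarith
      have a2 := Real.rpow_le_rpow (by positivity) a1 Q0
      have a3 : κ ^ Q ≤ κ ^ 3 := (Real.rpow_le_rpow_of_exponent_le κ1 Q3).trans_eq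
        (Real.rpow_ofNat κ 3)
      rw [Real.mul_rpow (by positivity) (by positivity)] at a2
      have := mul_le_mul_of_nonneg_right (a2.trans (mul_le_mul_of_nonneg_right a3 w0))
        (add_nonneg (eta_nn E n x) (hb j))
      rw [wt]
      linarith
    · rw [lintegral_add_right _ (measurable_const.indicator (bx_ms ..)), lintegral_indicator_const
        (bx_ms ..), bx_vol, mul_add]
      refine add_le_add ((lintegral_indicator_le _ _).trans_eq ?_) (le_of_eq (by ring))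
      rw [lintegral_const_mul' _ _ (ENNReal.mul_ne_top ENNReal.ofReal_ne_top ENNReal.ofReal_ne_top),
        mul_assoc]
      rfl
  · rw [ENNReal.tsum_mul_left, mul_assoc, add_mul, one_mul, ENNReal.tsum_add, ENNReal.tsum_mul_left]
    refine mul_le_mul_right (add_le_add (ENNReal.tsum_le_of_sum_range_le fun k => le_trans
      (sum_le_sum_of_subset (range_mono k.le_succ)) (sl k)) (mul_le_mul_right
      (ENNReal.tsum_le_of_sum_range_le fun k => le_trans
        (sum_le_sum_of_subset (range_mono k.le_succ)) ?_) _)) _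
    rw [← ENNReal.ofReal_sum_of_nonneg fun j _ => mul_nonneg (P354YH.wt_pos Q j).le (hb j)]
    exact ENNReal.ofReal_le_ofReal (sb k)

/-- The integral over the layers. -/
theorem lay_int (M t1 R : ℝ) : ∃ C ≥ 0, ∀ (Φ : Fm) (h : Φ.Ok) (j : Φ.J), (Φ.c j).Ok → Φ.M0 = M →
    (Φ.c j).t1 = t1 → (Φ.E j).Shape (Φ.c j) → (Φ.c j).R1 + 3 ≤ Φ.R0 j → 0 ≤ R →
    R + 1 ≤ (Φ.c j).Rs → ∀ (Q Λ D s T : ℝ) (n : ℕ) (b : ℕ → ℝ) (f : Φ.A), 0 ≤ Q → Q ≤ 3 → 0 ≤ Λ →
    0 ≤ D → (∀ i, 0 ≤ b i) → (∀ k, sm Q k b ≤ D) → Sl (Φ.c j) Q (Ys (Φ.c j) (Φ.E j) n s R) T D →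
    f ∈ (h.ch.B j).K → (∀ x : h.ch.Pt, x.1 = j → h.ch.val x f ≤
      Λ * (bd1 (Φ.c j) (Φ.E j) Q n s R T b (h.pt x) + bd2 M D (h.pt x))) →
    (h.ch.B j).J f ≤ C * Λ * D := by
  set A := ofReal ((2 + t1 + R + 4 * M ^ 2) ^ 3) * (1 + ofReal (1 + t1 + R + 4 * M ^ 2) *
    (ofReal R * V0)) + ∫⁻ x in U2 M, ofReal (x.2.1 ^ (-41 / 20 : ℝ)) with hA
  have A1 : A ≠ ∞ := ENNReal.add_ne_top.2 ⟨ENNReal.mul_ne_top ENNReal.ofReal_ne_top
    (ENNReal.add_ne_top.2 ⟨ENNReal.one_ne_top, ENNReal.mul_ne_top ENNReal.ofReal_ne_top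
      (ENNReal.mul_ne_top ENNReal.ofReal_ne_top V0_ne)⟩), far_fin M⟩
  refine ⟨A.toReal, ENNReal.toReal_nonneg, fun Φ h j o hM ht sh r0 R0 hR Q Λ D s T n b f Q0 Q3 Λ0
    D0 hb sb sl hf e => ?_⟩
  have ms : MeasurableSet (U2 M) := MeasurableSet.iUnion fun _ => bx_ms ..
  have mr : Measurable fun x : E6 => ofReal (x.2.1 ^ (-41 / 20 : ℝ)) :=
    (measurable_snd.fst.pow_const _).ennreal_ofReal
  have N := near_le o sh hR R0 Q0 Q3 hb sb sl
  rw [h.M, hM, ht] at N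
  rw [h.J_eq hf]
  refine int_le (by positivity) ((lintegral_mono (g := fun x => ofReal Λ *
    ({x | x ∈ (Φ.E j).O2 ∧ An x ∧ Est.Fa (Φ.c j) x}.indicator
      (fun x => ofReal (bd1 (Φ.c j) (Φ.E j) Q n s R T b x)) x +
    ofReal D * (U2 M).indicator (fun x => ofReal (x.2.1 ^ (-41 / 20 : ℝ))) x)) fun y => ?_).trans ?_)
  · by_cases m : y ∈ (Φ.E j).O2 ∧ An y ∧ y ∈ Φ.W j
    · have r1 : 1 ≤ y.2.1 := (h.one j).1.trans m.2.2.1
      have p1 := bd1_nn (c := Φ.c j) (E := Φ.E j) (Q := Q) (n := n) (s := s) (R := R) (T := T) hb y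
      have p2 := bd2_nn (M := M) D0 (zero_le_one.trans r1)
      have e1 : (fv (f j) y).re ≤ Λ * (bd1 (Φ.c j) (Φ.E j) Q n s R T b y + bd2 M D y) :=
        e (h.pk j y m) rfl
      have e2 : P354BO.bu (nq y) ^ 2 ≤ 1 := pow_le_one₀ P354BO.bu.nonneg P354BO.bu.le_one
      refine (ENNReal.ofReal_le_ofReal ((mul_le_mul_of_nonneg_left e1 (sq_nonneg _)).trans
        (mul_le_of_le_one_left (by positivity) e2))).trans ?_
      beta_reduce
      rw [ENNReal.ofReal_mul Λ0, ENNReal.ofReal_add p1 p2, indicator_of_mem (show y ∈ {x |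
        x ∈ (Φ.E j).O2 ∧ An x ∧ Est.Fa (Φ.c j) x} from
          ⟨m.1, m.2.1, r0.trans m.2.2.1, by rw [h.M]; exact m.2.2.2⟩)]
      refine mul_le_mul_right (add_le_add le_rfl ?_) _
      rw [bd2]
      split_ifs with k
      · rw [indicator_of_mem (mem_U2 m.2.1 r1 (hM ▸ m.2.2.2) k), ENNReal.ofReal_mul D0]
      · rw [ENNReal.ofReal_zero]; exact zero_le
    · refine le_of_eq_of_le ?_ zero_le
      by_cases m1 : y ∈ (Φ.E j).O2
      swap
      · simp [fv_out _ m1]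
      by_cases m2 : An y
      swap
      · simp [P354YK.bu_out m2]
      obtain ⟨C, -, -, w, z⟩ := (h.mem_K j f).1 hf
      have := congrArg Complex.re (z y fun k => m ⟨m1, m2, w k⟩)
      rw [fv_mul, P354YK.fv_den (h.co j).op m1, Complex.re_ofReal_mul] at this
      rw [this, Complex.zero_re, ENNReal.ofReal_zero]
  · rw [lintegral_const_mul' _ _ ENNReal.ofReal_ne_top, lintegral_add_right _
      ((mr.indicator ms).const_mul _), lintegral_const_mul' _ _ ENNReal.ofReal_ne_top,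
      lintegral_indicator ms, mul_right_comm, mul_comm _ Λ, ENNReal.ofReal_mul Λ0,
      ENNReal.ofReal_mul ENNReal.toReal_nonneg, ENNReal.ofReal_toReal A1, hA, add_mul]
    exact mul_le_mul_right (add_le_add N (mul_comm _ _).le) _

end Vale.Agent.P354FS
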