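import Vale.Agent.P354YL.Tl

/-!
The far estimate at a point: the words of the family are bounded by the integral over the layer.
-/

open Set Finset

noncomputable section

namespace Vale.Agent.P354FS

open Vale.Agent.P354XI Vale.Agent.P354XZ Vale.Agent.P354YF Vale.Agent.P354YL
open Vale.Agent.P354YS (Ps ps_mon ps_Dw val_dn dn_nonneg)

variable {A : Type} [CommRing A] [Algebra ℂ A] {C : Ch A} {F F0 : NF A} {t : Fin 4 → A}
  {K : Cut C} {Vw : List Lt → Fin 5 → A} {T : Tm C}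

/-- One member of the family is bounded by the density. -/
theorem one_le_Qb (h : C.Is) (k : K.Is) (l : ℝ) (n : ℕ) {s : ℕ} {w : List Lt} (hw : w.length ≤ s)
    (i : Fin 5) (y : C.Pt) :
    C.val y (C.fn (C.Dw K.p l i) * C.sl (n + 1) (Vw w i)) ≤ C.val y (Qb C F F0 K Vw l n s) := by
  have a := ps_Dw h (ps_p k) l
  rw [Qb, vl_add]
  refine le_add_of_le_of_nonneg (le_trans ?_ (dW_le h a (vl_sl0 h _) 0 hw))
    (dG_pos h (ps_p k) (vl_sl0 h _) _)
  rw [Ch.dW, vl_sum]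
  refine le_trans ?_ (single_le_sum (f := fun j => C.val y (C.dn (C.Dw K.p l) (C.sl (n + 1))
    (C.Vs Vw 0 w.length j))) (fun _ _ => dn_nonneg h a (vl_sl0 h _) _) (mem_univ w.get))
  rw [val_dn h a, vl_fn_mul h (a i).sm]
  have e : Vw w i = C.Vs Vw 0 w.length w.get i := by rw [Ch.Vs, List.ofFn_get]; rfl
  rw [e]
  exact single_le_sum (f := fun i => C.at' (C.Dw K.p l i) y *
    C.val y (C.sl (n + 1) (C.Vs Vw 0 w.length w.get i)))
    (fun i _ => mul_nonneg ((a i).at h y).le (vl_sl0 h _ _)) (mem_univ i)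

/-- The weights grow like the power 14 / 5 of the time. -/
theorem Dw_ge (h : C.Is) (i : Fin 5) (x : C.Pt) (u0 : 0 ≤ C.uu x) :
    C.at' (C.mon 0 0 (14 / 5)) x ≤ 8 * C.at' (C.Dw 1 0 i) x := by
  have r := one_le_rr h x
  have u := one_le_ut h x.1 (C.uu x)
  have v : C.ut x.1 (C.uu x) / 2 ≤ C.vv x.1 (C.uu x) (C.rr x) := by unfold Ch.vv; linarith
  have m : ∀ a b e : ℝ, 0 ≤ a → 0 ≤ b → b ≤ 3 → b + e = 14 / 5 →
      C.at' (C.mon 0 0 (14 / 5)) x ≤ 8 * C.at' (C.mon a b e) x := fun a b e a0 b0 b3 s => by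
    have e1 := Real.one_le_rpow r a0
    have e2 := Real.rpow_le_rpow (by positivity) v b0
    have e3 : (2 : ℝ) ^ b ≤ 8 := (Real.rpow_le_rpow_of_exponent_le one_le_two b3).trans_eq
      (by norm_num)
    rw [Real.div_rpow (by positivity) zero_le_two, div_le_iff₀ (by positivity)] at e2
    simp only [Ch.at', Ch.mon, Real.rpow_zero, one_mul]
    rw [← s, Real.rpow_add (by positivity)]
    have p1 : 0 ≤ C.vv x.1 (C.uu x) (C.rr x) ^ b := Real.rpow_nonneg (by linarith) _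
    have p2 : 0 ≤ C.ut x.1 (C.uu x) ^ e := by positivity
    have := mul_le_mul_of_nonneg_right (e2.trans (mul_le_mul_of_nonneg_left e3 p1)) p2
    nlinarith [mul_nonneg (sub_nonneg.2 e1) (mul_nonneg p1 p2)]
  have w : ∀ (k : Fin 4) (a : ℝ), 0 ≤ a →
      C.at' (C.mon 0 0 (14 / 5)) x ≤ 8 * C.at' (C.mon a 0 0 * C.w 1 0 k) x := fun k a a0 => by
    have q : ∀ a' b e : ℝ, 0 ≤ a' → 0 ≤ b → b ≤ 3 → b + e = 14 / 5 →
        C.at' (C.mon 0 0 (14 / 5)) x ≤ 8 * C.at' (C.mon a 0 0 * C.mon a' b e) x :=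
      fun a' b e a1 b0 b3 s => by
        rw [at_mul, at_mon_mul h, zero_add, zero_add]
        exact m _ _ _ (add_nonneg a0 a1) b0 b3 s
    fin_cases k
    · have := q (3 / 20) (14 / 5 - 0) 0 (by norm_num) (by norm_num) (by norm_num) (by norm_num)
      rwa [← one_mul (C.mon (3 / 20) _ _)] at this
    · exact q (3 / 20) (14 / 5 - 0) 0 (by norm_num) (by norm_num) (by norm_num) (by norm_num)
    · exact q (3 / 20) (17 / 10 - 0) (11 / 10) (by norm_num) (by norm_num) (by norm_num)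
        (by norm_num)
    · exact q 0 (-0) (14 / 5) le_rfl (by norm_num) (by norm_num) (by norm_num)
  have d : 0 ≤ C.at' (C.Dd 1 0 i) x := by
    have a : Ps (1 : Fam C.J) := ⟨smF_const fun _ => 1, fun _ _ _ _ => one_pos⟩
    fin_cases i
    exacts [((P354YS.ps_Dd h a 0 0).at h x).le, ((P354YS.ps_Dd h a 0 1).at h x).le,
      ((P354YS.ps_Dd h a 0 2).at h x).le, ((P354YS.ps_Dd h a 0 3).at h x).le, le_rfl]
  rw [Ch.Dw, at_add, mul_add]
  refine le_add_of_le_of_nonneg ?_ (by positivity)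
  fin_cases i
  exacts [w 0 1 zero_le_one, w 0 1 zero_le_one, w 1 1 zero_le_one, w 2 1 zero_le_one,
    w 3 (17 / 20) (by norm_num)]

/-- The far estimate at a point. -/
theorem ptw (H : Inp) (sd : Sd C F F0 t K Vw) (i : T.Is K) {κ : ℝ} (κ0 : 0 < κ)
    (hκ : ∀ x, 2 * (C.rr x * C.md x (F0.mc 0)) ^ 2 ≤ κ) {o : Od} (ok : o.Ok) {n s : ℕ} {l : ℝ}
    (hn : n + 6 ≤ o.ia) (r : Rng (n + 6) 0 s o.m o.m' o.N l) :
    ∃ c > 0, ∃ B, 0 ≤ B ∧ ∀ (x : C.Pt) σ e φ ψ D, σ ∈ T.Lv x.1 → 0 ≤ e → de C K x.1 e ≤ c →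
      (∀ y ∈ T.Y x.1 σ, Tb C F F0 Vw o e y) → Cf σ φ → (∀ y ≤ T.tv x, φ y = 1) →
      Cw C κ x.1 ψ → (∀ y ∈ T.Bx x, 1 ≤ C.at' ψ y) → x ∉ T.Z →
      K.L x.1 (T.fc φ * C.fn ψ) (Ql C F F0 K Vw l (n + 6) s) ≤ D → ∀ w k, List.length w ≤ s →
        C.rr x * C.at' (C.Dw 1 l k) x * C.jet n (Vw w k) x ^ 2 ≤ B * D := by
  have h := sd.ga.ch
  obtain ⟨c, c0, a⟩ := caus (Vw := Vw) sd.ga sd.cut i κ κ0 hκ
  obtain ⟨c', c0', B, B0, b⟩ := far H sd i κ κ0 hκ o (n + 6) s l ok hn r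
  obtain ⟨S, hS⟩ := i.sob n
  choose M M0 hM using cq_Dw h l
  refine ⟨min c c', lt_min c0 c0', (∑ k, M k + 1) * (max S 0 * B), by
    have := sum_nonneg fun k (_ : k ∈ Finset.univ) => M0 k
    positivity, fun x σ e φ ψ D hs e0 hd tb cf p1 cw q1 z hL w k hw => ?_⟩
  have p := (a o x.1 σ e φ ψ hs e0 (hd.trans (min_le_left ..)) tb cf cw).1
  have E := (b x.1 σ e φ ψ hs e0 (hd.trans (min_le_right ..)) tb cf cw).trans
    (mul_le_mul_of_nonneg_left hL B0)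
  have we := wtE h sd.cut p
  have pd := ps_Dw h (ps_p sd.cut) l k
  have Mk : M k ≤ ∑ k, M k := single_le_sum (fun k _ => M0 k) (mem_univ k)
  generalize ∑ k, M k = N at *
  have N0 : 0 < N + 1 := by linarith [M0 k]
  have wt : (C.B x.1).Wt (T.fc φ * C.fn ψ * C.fn K.chi * C.fn (C.Dw K.p l k)) :=
    ⟨Ideal.mul_mem_right _ _ we.K, by
      have := we.re
      rw [Ibp.Re, h.c_eq] at this ⊢
      rw [map_mul, this, h.fn_c _ pd.sm], fun y => by
      refine le_of_le_of_eq ?_ ((h.ibp _).val_mul we.re y _).symm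
      exact mul_nonneg (we.pos y) ((pd.at h ⟨x.1, y⟩).le.trans_eq (vl_fn h pd.sm).symm)⟩
  have d0 : 0 ≤ C.at' (C.Dw 1 l k) x :=
    (hM k x x ⟨rfl, by linarith [rr_pos h x], le_rfl, by simp⟩).1
  have s1 := hS x z _ (C.at' (C.Dw 1 l k) x / (N + 1)) wt (by positivity) (fun y hy => by
    obtain ⟨j, t1, c1, r1, r2, u⟩ := i.bx x z y hy
    have e1 := (hM k x y ⟨j, r1, r2, u⟩).2
    have e2 := Dw_le h (le_refl l) y (sd.cut.ple _ _ (h.dom y)).1 k
    have e3 := (pd.at h y).le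
    have e4 := (hM k y y ⟨rfl, by linarith [rr_pos h y], le_rfl, by simp⟩).1
    rw [mul_assoc, mul_assoc, vl_mul h (i.fc_c φ cf.1), vl_fc i cf.1, p1 _ t1, one_mul,
      vl_fn_mul h cw.1, vl_fn_mul h sd.cut.sm.1, c1, one_mul, vl_fn h pd.sm, div_le_iff₀ N0]
    nlinarith [mul_le_mul_of_nonneg_right (q1 y hy) e3, mul_le_mul_of_nonneg_right Mk e4])
    (Vw w k) (sd.S w k)
  have s2 : (C.B x.1).J (T.fc φ * C.fn ψ * C.fn K.chi * C.fn (C.Dw K.p l k) *
      C.sl (n + 7) (Vw w k)) ≤ B * D := by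
    rw [mul_assoc _ (C.fn _)]
    exact (J_mono h we fun y _ => one_le_Qb h sd.cut l (n + 6) hw k y).trans E
  have s3 := J_pos h wt (f := C.sl (n + 7) (Vw w k)) fun y _ => vl_sl0 h _ _
  have s4 := s1.trans ((mul_le_mul_of_nonneg_right (le_max_left S 0) s3).trans
    (mul_le_mul_of_nonneg_left s2 (le_max_right S 0)))
  rw [div_mul_eq_mul_div, div_mul_eq_mul_div, div_le_iff₀ N0] at s4
  linarith

end Vale.Agent.P354FS
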