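import Vale.Agent.P354FS.Layb
import Vale.Agent.P354FS.Ptw
import Vale.Agent.P354FY.Pe
import Vale.Agent.P354FA.Bs
import Vale.Agent.P354FA.Nil
import Vale.Agent.P354YL.All
import Vale.Agent.P354YL.Sb
import Vale.Agent.P354YK.Tm

/-!
The decay near the outer radius.
-/

open Set

noncomputable section

namespace Vale.Agent.P354FS

open Vale.Agent.P354XG Vale.Agent.P354XD Vale.Agent.P354XI Vale.Agent.P354Z Vale.Agent.P354CV
open Vale.Agent.P354CO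
open Vale.Agent.P354YK (Fm)
open Vale.Agent.P354XZ (Cut Lt Rng)
open Vale.Agent.P354YL (Ql Sd Tm Od Cf Bx de)
open Vale.Agent.P354FA (Vw)
open Vale.Agent.P354FX (dv Pe TUBEB LOW2 REVE)

/-- The time function of the far chart. -/
def TMI : Prop := ∀ (Φ : Fm) (h : Φ.Ok) θ p pm ep, Φ.Gd θ pm →
  (h.tm θ (Bx h θ)).Is (h.cut θ p pm ep)

section
variable {Φ : Fm} (h : Φ.Ok) {K : Cut h.ch} (k : K.Is)
include k

theorem sd_ok (j : Φ.J) : Sd h.ch Φ.nf Φ.nf0 Φ.tc K (Vw Φ.nf Φ.nf0 h.ch) :=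
  ⟨h.ga, k, P354FA.bs h.ga j, P354FA.Vw_nil .., fun w i => by
    rw [Vw, map_sub, P354FA.S_Jh h.is h.nf_is, P354FA.S_Jh h.is h.ga.rf.is, sub_zero]⟩

/-- The far estimate at a point of the chart, for later times. -/
theorem ptw_dv {T : Tm h.ch} (i : T.Is K) {m L : ℕ} (hm : 11 ≤ m) (hL : m + 6 ≤ L) :
    ∃ c > 0, ∃ B, 0 ≤ B ∧ ∀ (x : h.ch.Pt) σ e φ D, σ ∈ T.Lv x.1 → 0 ≤ e → de h.ch K x.1 e ≤ c →
      (∀ y ∈ T.Y x.1 σ, P354YL.Tb h.ch Φ.nf Φ.nf0 (Vw Φ.nf Φ.nf0 h.ch) (od m L) e y) → Cf σ φ →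
      (∀ y ≤ T.tv x, φ y = 1) → x ∉ T.Z → 0 ≤ (h.pt x).1 → 0 ≤ D →
      K.L x.1 (T.fc φ * h.ch.fn 1) (Ql h.ch Φ.nf Φ.nf0 K (Vw Φ.nf Φ.nf0 h.ch) 0 6 L) ≤ D →
      ∀ w k, List.length w ≤ L → k ≤ 4 → dv (Φ.c x.1) (Φ.E x.1) (h.pt x) w k ≤
        √(B * D * (1 + |(h.pt x).1|) ^ (-(14 / 5) : ℝ)) := by
  by_cases n : Nonempty Φ.J
  swap
  · exact ⟨1, one_pos, 0, le_rfl, fun x => (n ⟨x.1⟩).elim⟩
  obtain ⟨j⟩ := n
  obtain ⟨K0, k0, hK⟩ := P354YL.sy0 h.is h.ga.rf.m0.1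
  obtain ⟨c, c0, B, B0, a⟩ := ptw P354YL.inp (sd_ok h k j) i (κ := 2 * K0 ^ 2 + 1) (by positivity)
    (fun x => by
      have r := h.rr_pos x
      have := mul_le_mul_of_nonneg_left (hK x) r.le
      rw [Real.rpow_neg_one, mul_left_comm, mul_inv_cancel₀ r.ne', mul_one] at this
      linarith [pow_le_pow_left₀ (mul_nonneg r.le (P354YF.md0 _)) this 2])
    (o := od m L) ⟨le_rfl, show m + 6 + 5 ≤ 2 * m by omega, hL, le_rfl⟩ (n := 0) (s := L) (l := 0)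
    (show 6 ≤ m + 12 by omega) ⟨.inl ⟨⟨le_rfl, by norm_num⟩, show 6 ≤ m + 6 by omega⟩,
      m.le_add_right 6, (m.le_add_right 6).trans hL, show 6 ≤ 2 * m + 1 by omega,
      show 6 + L ≤ L + m by omega⟩
  refine ⟨c, c0, (2 ^ (L + 2)) ^ 2 * (64 * B), by positivity,
    fun x σ e φ D hs e0 hd tb cf p1 z t0 D0 hl w k hw hk => Real.le_sqrt_of_sq_le ?_⟩
  have q := a x σ e φ 1 D hs e0 hd tb cf p1 (P354YL.cw_one _ _) (fun _ _ => le_rfl) z hl w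
    ⟨k, by omega⟩ hw
  have r := P354YF.one_le_rr h.is x
  have u0 : (h.pt x).1 ≤ h.ch.uu x := by
    rw [h.uu_eq, uu, ← h.rr_eq]
    exact le_add_of_nonneg_right (by positivity)
  have d := Dw_ge h.is ⟨k, by omega⟩ x (t0.trans u0)
  have u1 : 1 + |(h.pt x).1| ≤ 2 * h.ch.ut x.1 (h.ch.uu x) := by
    rw [abs_of_nonneg t0]
    linarith [P354YF.one_le_ut h.is x.1 (h.ch.uu x), P354YF.ut_ge x.1 (h.ch.uu x),
      le_abs_self (h.ch.uu x)]
  have u2 := Real.rpow_le_rpow (by positivity) u1 (show (0 : ℝ) ≤ 14 / 5 by norm_num)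
  have u3 : (2 : ℝ) ^ (14 / 5 : ℝ) ≤ 8 := (Real.rpow_le_rpow_of_exponent_le one_le_two
    (show (14 / 5 : ℝ) ≤ 3 by norm_num)).trans_eq (by norm_num)
  have u4 := zero_le_one.trans (P354YF.one_le_ut h.is x.1 (h.ch.uu x))
  rw [Real.mul_rpow zero_le_two u4] at u2
  simp only [P354XZ.Ch.at', P354XZ.Ch.mon, Real.rpow_zero, one_mul] at d
  have v := pow_le_pow_left₀ (norm_nonneg _) (P354FY.dv_le h hw ⟨k, by omega⟩ x).1 2
  have p : 0 < (1 + |(h.pt x).1|) ^ (14 / 5 : ℝ) := by positivity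
  rw [P354YF.jet_zero] at q
  rw [Real.rpow_neg (by positivity), ← div_eq_mul_inv, le_div_iff₀ p]
  refine (mul_le_mul_of_nonneg_right v p.le).trans ?_
  rw [mul_pow, mul_assoc, mul_assoc]
  refine mul_le_mul_of_nonneg_left ?_ (by positivity)
  have e1 := (u2.trans (mul_le_mul_of_nonneg_right u3 (Real.rpow_nonneg u4 _))).trans
    (mul_le_mul_of_nonneg_left d (by norm_num))
  change _ ≤ 8 * (8 * h.ch.at' (h.ch.Dw 1 0 ⟨k, by omega⟩) x) at e1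
  generalize h.ch.at' (h.ch.Dw 1 0 ⟨k, by omega⟩) x = W at e1 q
  have s := sq_nonneg (h.ch.md x (Vw Φ.nf Φ.nf0 h.ch w ⟨k, by omega⟩))
  generalize h.ch.md x (Vw Φ.nf Φ.nf0 h.ch w ⟨k, by omega⟩) ^ 2 = Y at s q ⊢
  have W0 : 0 ≤ W := by linarith
  linarith [mul_le_mul_of_nonneg_left e1 s, mul_le_mul_of_nonneg_right r (mul_nonneg W0 s)]

end

/-- The states with the inner radius of the chart. -/
structure Ix (M θ : ℝ) where
  c : Cs
  E : Est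
  R0 : ℝ
  ok : c.Ok
  is : E.Is c
  hM : c.M = M
  h1 : 4 * c.R1 ≤ R0
  h2 : 24 * M ^ 2 ≤ R0
  h3 : 1 ≤ θ * R0

variable (M θ : ℝ)

def fm : Fm := ⟨Ix M θ, M, Ix.c, Ix.E, Ix.R0, Ix.R0⟩

theorem Ix.big {M θ : ℝ} (j : Ix M θ) : 1 ≤ j.R0 ∧ 4 * M ≤ j.R0 ∧ j.c.R1 + 3 ≤ j.R0 := by
  have a := j.ok.R1
  have b := M_pos j.ok
  have c := j.h1
  rw [j.hM] at a b
  exact ⟨by linarith, by linarith, by linarith⟩

theorem fm_ok : (fm M θ).Ok :=
  ⟨Ix.hM, fun j => j.is.shape.co2, fun j => j.is.eqs, fun j => ⟨j.big.1, le_rfl⟩⟩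

def pm (j : Ix M θ) : ℝ := 4 / j.c.cw
def kk : Cut (fm_ok M θ).ch := (fm_ok M θ).cut θ (fun _ _ => 1) (pm M θ) fun _ => 0

variable {θ} (h0 : 0 < θ) (h1 : θ ≤ 1)
include h0 h1

theorem fm_gd : (fm M θ).Gd θ (pm M θ) :=
  ⟨Ix.ok, fun j => j.is.shape, fun j => j.big.2.2, Ix.h2, ⟨h0, h1⟩, Ix.h3,
    fun j => (div_mul_cancel₀ 4 j.ok.cw.1.ne').ge⟩

theorem kk_is : (kk M θ).Is := (fm_ok M θ).cut_is h0 h1 (fun _ => le_rfl) fun j =>
  P354YK.bend_one j.big.1 j.big.1 ((one_le_div j.ok.cw.1).2 (by linarith [j.ok.cw.2]))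

theorem core (H0 : TMI) (H1 : TUBEB) (H2 : LOW2) (H3 : RAWN) (H4 : RAWL) (H5 : REVE) {m L : ℕ}
    (hm : 11 ≤ m) (hL : m + 6 ≤ L) : ∃ R0, ∀ R ≥ R0, ∀ c : Cs, c.Ok → c.M = M → c.del = θ →
      32 * c.R1 ≤ R → R ≤ c.R2 → 10 ≤ c.N0 → c.L0 ≤ L → 6 + L ≤ c.K →
      ∃ δ > 0, ∃ C ≥ 0, ∀ E ε s T D, At c E TabE m L δ ε s T D → Gi c E (14 / 5) R (T + c.B) D →
        ∀ s' < s, Sl c (14 / 5) (Ys c E (L + 8) s' R) (T + c.B) D →
        ∀ x ∈ E.O1, nq x = 1 → Est.Ab c x → c.Rs - 3 ≤ x.2.1 → rv E.sig x < s' →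
          E.eta L x ≤ C * D * (1 + |x.1|) ^ (-(14 / 5) : ℝ) := by
  have h := fm_ok M θ
  have k := kk_is M h0 h1
  have i := H0 _ h θ (fun _ _ => 1) (pm M θ) (fun _ => 0) (fm_gd M h0 h1)
  obtain ⟨c0, p0, B, B0, a0⟩ := ptw_dv h k i hm hL
  refine ⟨8 * max ((c0 / 2) ^ (-10 : ℝ)) (max (24 * M ^ 2) θ⁻¹),
    fun R hR c o hM hθ r1 r2 n0 l0 k0 => ?_⟩
  have g : max ((c0 / 2) ^ (-10 : ℝ)) (max (24 * M ^ 2) θ⁻¹) ≤ R / 8 := by linarith
  have g1 := (le_max_left ..).trans g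
  have g2 := ((le_max_left ..).trans (le_max_right ..)).trans g
  have g3 := ((le_max_right ..).trans (le_max_right ..)).trans g
  have a1 := o.R1
  have a2 := o.R2
  have a3 := o.Rs
  have a4 := M_pos o
  have a5 := o.B
  have a6 := o.cw.1
  have R0 : 0 < R / 8 := by linarith
  have g4 : (R / 8) ^ (-1 / 10 : ℝ) ≤ c0 / 2 := by
    refine (Real.rpow_le_rpow_of_nonpos (by positivity) g1 (by norm_num)).trans_eq ?_
    rw [← Real.rpow_mul (by positivity)]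
    norm_num
  obtain ⟨δ1, p1, C1, c1, b1⟩ := layb h k (fun j => j.big.2.1) H1 H2 H3 H4 6 L c.t1 (R / 8) (R / 8)
    (4 / c.cw) R
  obtain ⟨δ2, p2, C2, c2, b2⟩ := H5 M (c.Rs + 1) L
  obtain ⟨δ3, p3, b3⟩ := P354FY.pe_of o (ρ := c.Rs + 1) (by linarith) p2
  refine ⟨min (min δ1 δ3) (min (δ2 ^ 2 / (B * C1 + 1)) (c0 / 2 / ((R / 8) ^ 3 * (4 / c.cw)))),
    by positivity, C2 * (B * C1) + (1 + c.B) ^ (14 / 5 : ℝ), by positivity,
    fun E ε s T D A g s' hs sl x m1 n1 ab r t => ?_⟩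
  generalize hδ : min (min δ1 δ3) (min (δ2 ^ 2 / (B * C1 + 1))
    (c0 / 2 / ((R / 8) ^ 3 * (4 / c.cw)))) = δ at A
  have d1 : δ ≤ δ1 := hδ ▸ (min_le_left ..).trans (min_le_left ..)
  have d3 : δ ≤ δ3 := hδ ▸ (min_le_left ..).trans (min_le_right ..)
  have d2 : δ * (B * C1 + 1) ≤ δ2 ^ 2 :=
    (le_div_iff₀ (by positivity)).1 (hδ ▸ (min_le_right ..).trans (min_le_left ..))
  have d4 : δ * ((R / 8) ^ 3 * (4 / c.cw)) ≤ c0 / 2 :=
    (le_div_iff₀ (by positivity)).1 (hδ ▸ (min_le_right ..).trans (min_le_right ..))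
  have d0 : 0 ≤ δ := A.bo.pos.le.trans A.le
  have I := A.bo.is
  have sh := I.shape
  obtain ⟨D0, e0, -⟩ := gi_par o I g
  have an : An x := ⟨by linarith, by linarith⟩
  have w0 : 0 < (1 + |x.1|) ^ (-(14 / 5) : ℝ) := by positivity
  have z1 := mul_nonneg (mul_nonneg (mul_nonneg c2 (mul_nonneg B0 c1)) D0) w0.le
  have z2 : 0 ≤ (1 + c.B) ^ (14 / 5 : ℝ) * D * (1 + |x.1|) ^ (-(14 / 5) : ℝ) := by positivity
  rw [add_mul, add_mul]
  rcases le_total x.1 0 with t0 | t0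
  · refine le_add_of_nonneg_of_le z1 ((P354CO.eta_mono (by omega) x).trans
      ((I.near.ini x m1 an (by linarith [o.t1])).trans ?_))
    have e1 : E.e0 ^ 2 ≤ D := (pow_le_pow_left₀ I.near.e0 e0 2).trans_eq (Real.sq_sqrt D0)
    have e2 := Real.rpow_le_rpow (by positivity) (show 1 + |x.1| ≤ 1 + c.B by
      rw [abs_of_nonpos t0]; linarith [(sh.rad1 x m1).2.2]) (show (0 : ℝ) ≤ 14 / 5 by norm_num)
    rw [mul_right_comm, Real.rpow_neg (by positivity), ← div_eq_mul_inv]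
    exact e1.trans (le_mul_of_one_le_left D0 ((one_le_div (by positivity)).2 e2))
  have fa := ab_fa o ab (by linarith)
  let j : Ix M θ := ⟨c, E, R / 8, o, I, hM, by linarith, g2, by
    have := mul_le_mul_of_nonneg_left g3 h0.le
    rwa [mul_inv_cancel₀ h0.ne'] at this⟩
  let X : h.ch.Pt := h.pk j x ⟨(sh.up x m1 fa).1, an, show R / 8 ≤ x.2.1 by linarith, hM ▸ fa.2⟩
  have tv : (h.tm θ (Bx h θ)).tv X < s' := (sh.up x m1 fa).2.symm.trans_lt t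
  obtain ⟨φ, cf, φ1⟩ := P354YL.cf_ex tv
  have lv : s' ∈ E.Lv := sh.lvL hs.le A.lv
  have vl : ∀ y, h.ch.val y ((h.tm θ (Bx h θ)).fc φ * h.ch.fn 1) = φ (rv ((fm M θ).E y.1).tau
      (h.pt y)) := fun y => by
    rw [P354YF.vl_mul h.is (i.fc_c φ cf.1), P354YL.vl_fc i cf.1,
      P354YF.vl_fn h.is (P354YL.cw_one 0 j).1]
    exact mul_one _
  have q := b1 j o rfl rfl le_rfl le_rfl n0 k0 j.h1 (by linarith) (show R + 1 ≤ c.Rs by linarith)
    (fun y e z => by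
      have p := h.rr_pos y
      have := (P354YK.lay_ne h0 ((h.one _).1.trans_lt' one_pos) p z).2.2
      rw [e] at this
      exact this.imp le_of_lt fun e => by
        refine e.le.trans (le_trans ?_ (mul_le_mul_of_nonneg_right hθ.ge p.le))
        linarith [mul_pos h0 p])
    L ε (14 / 5) 1 D s' (T + c.B) 0 ((h.tm θ (Bx h θ)).fc φ * h.ch.fn 1) (by omega) A.bo
    (A.le.trans d1) (A.D1.trans d1) (by norm_num) (by norm_num) zero_le_one le_rfl g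
    (sl.mono le_rfl fun _ _ => Ys_mono (by omega) le_rfl le_rfl le_rfl le_rfl)
    (by rw [map_mul, i.fc_c φ cf.1, h.is.fn_c _ (P354YL.cw_one 0 j).1])
    (by
      rw [mul_right_comm]
      exact Ideal.mul_mem_right _ _ (i.cpt φ cf.1 j s' lv cf.2.2).2.1)
    fun y e => by
      rw [vl, e]
      have b := (cf.2.1 (rv E.tau (h.pt y))).1
      refine ⟨b.1, b.2, fun r => ⟨mul_le_mul_of_nonneg_right b.2 (by positivity), fun z => ?_⟩⟩
      have l : rv E.tau (h.pt y) < s' := lt_of_not_ge fun c => z (cf.2.2 _ c)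
      have f : Est.Fa c (h.pt y) := by
        have := h.fa y (Ix.big _).2.2
        rwa [e] at this
      have m2 : h.pt y ∈ E.O2 := by
        have := (h.pt_mem y).1
        rwa [e] at this
      rw [h.rr_eq] at r
      have m := sh.low _ m2 f (by linarith)
      exact ⟨l.le, (le_total T _).elim (fun c => (A.top.lens _ m
        (((sh.up _ m f).2.trans_lt l).trans hs) c).2) fun c => by linarith⟩
  have v := a0 X s' (δ * (R / 8) ^ 3) φ (C1 * 1 * D) lv (by positivity) (by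
      show δ * (R / 8) ^ 3 * (4 / c.cw) + (R / 8) ^ (-1 / 10 : ℝ) ≤ c0
      linarith)
    (fun y e => by
      have := A.tb _ h y (congrArg Ix.c e.1) (congrArg Ix.E e.1)
        ((Ix.big j).2.2.trans_eq (congrArg Ix.R0 e.1).symm) (lt_trans e.2 hs)
      rwa [show (fm M θ).U0 y.1 = R / 8 from congrArg Ix.R0 e.1] at this) cf φ1
    (fun z => by
      have p := h.rr_pos X
      have u : 0 ≤ h.ch.uu X := by
        rw [h.uu_eq, uu, ← h.rr_eq]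
        exact add_nonneg t0 (by positivity)
      rcases z with z | z
      · have : x.2.1 ≤ 8 * (R / 8) := (h.rr_eq X).symm.trans_le z
        linarith
      · have := mul_le_mul_of_nonneg_right (hθ.symm.trans_le o.del.2) p.le
        linarith) t0 (by positivity) q
  have e := b2 c E x hM (b3 E L ε A.bo l0 (A.le.trans d3) x m1 an fa (sh.rad1 x m1).2.1)
    (fun w k hw hk => (v w k (by omega) hk).trans (Real.sqrt_le_iff.2 ⟨p2.le, ?_⟩)) _ v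
  · rw [Real.sq_sqrt (by positivity), show h.pt X = x from rfl] at e
    exact le_add_of_le_of_nonneg (e.trans_eq (by ring)) z2
  · refine (mul_le_of_le_one_right (by positivity) (Real.rpow_le_one_of_one_le_of_nonpos
      (le_add_of_nonneg_right (abs_nonneg _)) (by norm_num))).trans ?_
    linarith [mul_le_mul_of_nonneg_left A.D1 (mul_nonneg B0 c1)]

omit h0 h1 in
/-- The row FSE. -/
theorem fse_of (H0 : TMI) (H1 : TUBEB) (H2 : LOW2) (H3 : RAWN) (H4 : RAWL) (H5 : REVE) :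
    FSE TabE := by
  intro z a
  refine ⟨11, fun m hm => ⟨10, fun b hb => ⟨m + 6 + b.L0, fun L hL => ?_⟩⟩⟩
  by_cases t : 0 < a.del ∧ a.del ≤ 1
  swap
  · exact ⟨0, fun _ _ => ⟨0, 0, fun _ _ _ _ _ _ o =>
      (t ⟨o.del.1, le_trans o.del.2 (by norm_num)⟩).elim⟩⟩
  obtain ⟨R0, h⟩ := core z.M t.1 t.2 H0 H1 H2 H3 H4 H5 hm (show m + 6 ≤ L by omega)
  exact ⟨max R0 (32 * z.R1), fun R hR => ⟨6 + L, R, fun _ hK _ h2 _ _ o =>
    h R (le_of_max_le_left hR) _ o rfl rfl (le_of_max_le_right hR) h2 hb (show b.L0 ≤ L by omega)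
      hK⟩⟩

end Vale.Agent.P354FS
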